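import Mathlib.GroupTheory.Perm.Cycle.Basic
import Mathlib.Combinatorics.SimpleGraph.Hamiltonian
import Mathlib.Dynamics.PeriodicPts.Lemmas
import Mathlib.Data.Fintype.Perm

/-!
Merging the cycles of a permutation along another one, and closed walks along permutations.
-/

namespace Vale.Agent.P039

open Equiv Equiv.Perm

variable {W : Type*} [Finite W]

/-- Composing with `τ`, whose moved points lie on pairwise different cycles of `σ`, merges
these cycles and splits none. -/
lemma merge (σ τ : Perm W)
    (h : ∀ u v, τ u ≠ u → τ v ≠ v → SameCycle σ u v → u = v) :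
    (∀ x y, SameCycle σ x y → SameCycle (σ * τ) x y) ∧
      ∀ u, SameCycle (σ * τ) u (τ u) := by
  have hloop : ∀ u, τ u ≠ u → SameCycle (σ * τ) (σ u) u := by
    intro u hu
    have key : ∀ j, SameCycle (σ * τ) (σ u) ((σ ^ (j + 1)) u) := by
      intro j
      induction j with
      | zero => rw [zero_add, pow_one]
      | succ j ih =>
        have e : (σ ^ (j + 1 + 1)) u = σ ((σ ^ (j + 1)) u) := by rw [pow_succ', mul_apply]
        rw [e]
        by_cases hv : τ ((σ ^ (j + 1)) u) = (σ ^ (j + 1)) u
        · have : (σ * τ) ((σ ^ (j + 1)) u) = σ ((σ ^ (j + 1)) u) := by rw [mul_apply, hv]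
          rw [← this]
          exact sameCycle_apply_right.2 ih
        · rw [← h u _ hu hv (sameCycle_pow_right.2 (SameCycle.refl σ u))]
    obtain ⟨n, hn, hn'⟩ : ∃ n, 0 < n ∧ σ ^ n = 1 :=
      ⟨orderOf σ, orderOf_pos σ, pow_orderOf_eq_one σ⟩
    obtain ⟨j, rfl⟩ : ∃ j, n = j + 1 := ⟨n - 1, by omega⟩
    simpa [hn'] using key j
  have step : ∀ v, SameCycle (σ * τ) v (σ v) := by
    intro v
    by_cases hv : τ v = v
    · have : (σ * τ) v = σ v := by rw [mul_apply, hv]
      rw [← this]
      exact sameCycle_apply_right.2 (SameCycle.refl _ _)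
    · exact (hloop v hv).symm
  refine ⟨?_, fun u => ?_⟩
  · intro x y hxy
    obtain ⟨i, -, rfl⟩ := hxy.exists_pow_eq'
    clear hxy
    induction i with
    | zero => rw [pow_zero]; exact SameCycle.refl _ _
    | succ i ih =>
      rw [pow_succ', mul_apply]
      exact ih.trans (step _)
  · by_cases hu : τ u = u
    · rw [hu]
    · have hu' : τ (τ u) ≠ τ u := fun e => hu (τ.injective e)
      have h1 : SameCycle (σ * τ) u (σ (τ u)) := by
        rw [← mul_apply]; exact sameCycle_apply_right.2 (SameCycle.refl _ _)
      exact h1.trans (hloop _ hu')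

variable {V : Type*} [Fintype V] [DecidableEq V]

/-- A permutation along edges with a single orbit gives a Hamiltonian cycle. -/
lemma isHamiltonian_of_iterate (G : SimpleGraph V) (h : Perm V) (hadj : ∀ v, G.Adj v (h v))
    (v : V) (hall : ∀ x, ∃ i : ℕ, h^[i] v = x) (hcard : 3 ≤ Fintype.card V) :
    G.IsHamiltonian := by
  intro _
  set n := Function.minimalPeriod h v with hn
  have hpos : 0 < n :=
    Function.minimalPeriod_pos_iff_mem_periodicPts.2
      (h.injective.mem_periodicPts v)
  have hbij : Function.Bijective fun i : Fin n => h^[i] v := by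
    refine ⟨fun i j e => Fin.ext (Function.iterate_injOn_Iio_minimalPeriod i.2 j.2 e), fun x => ?_⟩
    obtain ⟨i, rfl⟩ := hall x
    exact ⟨⟨i % n, Nat.mod_lt _ hpos⟩, Function.iterate_mod_minimalPeriod_eq⟩
  have hcn : n = Fintype.card V := by
    simpa using Fintype.card_of_bijective hbij
  have walk : ∀ m u, ∃ p : G.Walk u (h^[m] u),
      p.support = (List.range (m + 1)).map (fun i => h^[i] u) := by
    intro m
    induction m with
    | zero => intro u; exact ⟨SimpleGraph.Walk.nil, by simp⟩
    | succ m ih =>
      intro u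
      obtain ⟨p, hp⟩ := ih (h u)
      refine ⟨SimpleGraph.Walk.cons (hadj u) (p.copy rfl (Function.iterate_succ_apply h m u).symm), ?_⟩
      rw [SimpleGraph.Walk.support_cons, SimpleGraph.Walk.support_copy, hp,
        List.range_succ_eq_map (n := m + 1)]
      simp [List.map_map, Function.comp_def, Function.iterate_succ_apply]
  obtain ⟨m, hm⟩ : ∃ m, n = m + 1 := ⟨n - 1, by omega⟩
  obtain ⟨q, hq⟩ := walk m (h v)
  have hend : h^[m] (h v) = v := by
    rw [← Function.iterate_succ_apply, Nat.succ_eq_add_one, ← hm, hn]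
    exact Function.iterate_minimalPeriod
  refine ⟨v, SimpleGraph.Walk.cons (hadj v) (q.copy rfl hend), ?_⟩
  have hlen : q.length = m := by
    have := congrArg List.length hq
    simpa using this
  have hpath : q.IsPath := by
    rw [SimpleGraph.Walk.isPath_def, hq]
    refine List.Nodup.map_on (fun i hi j hj e => ?_) List.nodup_range
    rw [List.mem_range] at hi hj
    rw [← Function.iterate_succ_apply, ← Function.iterate_succ_apply,
      Function.iterate_succ_apply', Function.iterate_succ_apply'] at e
    exact Function.iterate_injOn_Iio_minimalPeriod (by rw [Set.mem_Iio, ← hn]; omega)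
      (by rw [Set.mem_Iio, ← hn]; omega) (h.injective e)
  rw [SimpleGraph.Walk.isHamiltonianCycle_iff_isCycle_and_length_eq,
    SimpleGraph.Walk.isCycle_iff_isPath_tail_and_le_length]
  refine ⟨⟨?_, ?_⟩, ?_⟩
  · rw [SimpleGraph.Walk.tail_cons]
    simpa [SimpleGraph.Walk.isPath_def] using hpath
  · simp [hlen]; omega
  · simp [hlen]; omega

end Vale.Agent.P039
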